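import Vale.Agent.Lib.P295.Final

/-!
# P295: Vénéreau-type polynomials

`ℂ[x,y,z,u] = MvPolynomial (Fin 4) ℂ`, `p = yu+z²`, `v = xz+yp`, `w = x²u-2xzp-yp²`.

For every `Q ∈ ℂ[x,v,w]` the polynomial `y + x Q(x,v,w)` is carried by an automorphism fixing `x`
to `y + x Q(0,0,w) + x² s(w)`; if `Q(0,0,w) = c` is constant one can take `s = r_Q`, and if
moreover `r_Q` is constant then `y + x Q(x,v,w)` is a coordinate.
-/

namespace Vale.Agent.Results.P295.VenereauNormalForm

open MvPolynomial Vale.Agent.P295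

theorem result (Q : MvPolynomial (Fin 3) ℂ) :
    (∃ (s : Polynomial ℂ) (σ : MvPolynomial (Fin 4) ℂ ≃ₐ[ℂ] MvPolynomial (Fin 4) ℂ),
      σ (X 0) = X 0 ∧
      σ (venType Q) = X 1 + X 0 * Polynomial.aeval venW (pureW Q)
        + X 0 ^ 2 * Polynomial.aeval venW s) ∧
    (∀ c : ℂ, pureW Q = Polynomial.C c →
      ∃ σ : MvPolynomial (Fin 4) ℂ ≃ₐ[ℂ] MvPolynomial (Fin 4) ℂ,
        σ (X 0) = X 0 ∧
        σ (venType Q) = X 1 + X 0 * C c + X 0 ^ 2 * Polynomial.aeval venW (secondOrder Q)) ∧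
    (∀ c d : ℂ, pureW Q = Polynomial.C c → secondOrder Q = Polynomial.C d →
      IsCoord (venType Q) ∧
      ∃ σ : MvPolynomial (Fin 4) ℂ ≃ₐ[ℂ] MvPolynomial (Fin 4) ℂ,
        σ (X 0) = X 0 ∧ σ (X 1) = venType Q) := by
  obtain ⟨G, Q1, H, ε, hQ, hT, hR⟩ := normal_form Q
  have hp : ∀ a, pureW a = pureP a := fun _ => rfl
  have h2 : ∀ c : ℂ, pureW Q = Polynomial.C c →
      ∃ σ : MvPolynomial (Fin 4) ℂ ≃ₐ[ℂ] MvPolynomial (Fin 4) ℂ,
        σ (X 0) = X 0 ∧
        σ (venType Q) = X 1 + X 0 * C c + X 0 ^ 2 * Polynomial.aeval venW (secondOrder Q) := by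
    intro c hc
    rw [hp] at hc
    have he0 : e0 Q = C c := by
      rw [e0_eq, hc, Polynomial.aeval_C]; rfl
    rw [he0] at hQ
    -- the coefficient of the linear form
    have hal : (2 : T3) * Ham H (X 1) = G * X 2 + ε * X 1 := by
      have h1 := hT.2
      have h3 : X 1 * ((2 : T3) * Ham H (X 1)) = X 1 * (G * X 2 + ε * X 1) := by
        linear_combination h1
      exact mul_left_cancel₀ (MvPolynomial.X_ne_zero 1) h3
    have hal' : (2 : Polynomial ℂ) * pureP (Ham H (X 1)) = pureP G * Polynomial.X := by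
      have := congrArg pureP hal
      rw [map_mul, map_add, map_mul, map_mul, pureP_X1, pureP_X2, map_ofNat] at this
      simpa using this
    have hDQ : pureP (Ham H Q) = pureP G * pureP (Ham H (X 1)) := by
      have : Ham H Q = X 1 * Ham H G + G * Ham H (X 1) + X 0 * Ham H Q1 := by
        conv_lhs => rw [hQ]
        rw [map_add, map_add, Derivation.leibniz, Derivation.leibniz, Ham_X0,
          MvPolynomial.derivation_C]
        simp only [smul_eq_mul]
        ring
      rw [this, map_add, map_add, map_mul, map_mul, map_mul, pureP_X0, pureP_X1]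
      ring
    have hDq : pureP (Ham H (X 1 * (-G))) = - (pureP G * pureP (Ham H (X 1))) := by
      rw [Derivation.leibniz, map_neg]
      simp only [smul_eq_mul]
      rw [map_add, map_mul, map_mul, map_neg, map_neg, pureP_X1]
      ring
    have hd0 : pureP (pderiv 0 Q) = pureP Q1 := by
      have h5 : pderiv 0 Q = X 1 * pderiv 0 G + (X 0 * pderiv 0 Q1 + Q1) := by
        conv_lhs => rw [hQ]
        simp only [map_add, Derivation.leibniz, pderiv_C, pderiv_X, smul_eq_mul,
          Pi.single_apply]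
        simp
      rw [h5, map_add, map_add, map_mul, map_mul, pureP_X0, pureP_X1]
      ring
    have hd1 : pureP (pderiv 1 Q) = pureP G := by
      have h5 : pderiv 1 Q = X 1 * pderiv 1 G + G + X 0 * pderiv 1 Q1 := by
        conv_lhs => rw [hQ]
        simp only [map_add, Derivation.leibniz, pderiv_C, pderiv_X, smul_eq_mul,
          Pi.single_apply]
        simp
      rw [h5, map_add, map_add, map_mul, map_mul, pureP_X0, pureP_X1]
      ring
    have hsec : pureP (Q1 + (C (1/2) * Ham H (X 1 * (-G)) + Ham H Q)) = secondOrder Q := by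
      rw [secondOrder, hp, hp, hd0, hd1, map_add, map_add, map_mul, pureP_C, hDQ, hDq]
      have hq4 : (Polynomial.C (1/4) : Polynomial ℂ) * 4 = 1 := by
        rw [← map_ofNat Polynomial.C 4, ← Polynomial.C_mul]; norm_num
      have hqq : (Polynomial.C (1/2) : Polynomial ℂ) = Polynomial.C (1/4) * 2 := by
        rw [← map_ofNat Polynomial.C 2, ← Polynomial.C_mul]; norm_num
      linear_combination (Polynomial.C (1/4) * pureP G) * hal'
        - (pureP G * pureP (Ham H (X 1))) * hqq - (pureP G * pureP (Ham H (X 1))) * hq4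

    rw [hsec, hc] at hR
    obtain ⟨σ, s0, s1⟩ := hR
    refine ⟨σ, s0, ?_⟩
    rw [s1, Polynomial.aeval_C]
    rfl
  refine ⟨⟨_, hR⟩, h2, ?_⟩
  intro c d hc hd
  obtain ⟨σ, s0, s1⟩ := h2 c hc
  rw [hd, Polynomial.aeval_C, MvPolynomial.algebraMap_eq] at s1
  -- the elementary automorphism
  let E : ℂ → ℂ → (MvPolynomial (Fin 4) ℂ →ₐ[ℂ] MvPolynomial (Fin 4) ℂ) := fun a b =>
    aeval ![X 0, X 1 + X 0 * C a + X 0 ^ 2 * C b, X 2, X 3]
  have hE : ∀ a b, (E a b).comp (E (-a) (-b)) = AlgHom.id ℂ _ := by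
    intro a b
    apply MvPolynomial.algHom_ext
    intro i
    fin_cases i <;> simp [E] <;> ring
  let τ : MvPolynomial (Fin 4) ℂ ≃ₐ[ℂ] MvPolynomial (Fin 4) ℂ :=
    AlgEquiv.ofAlgHom (E c d) (E (-c) (-d)) (hE c d) (by simpa using hE (-c) (-d))
  have t0 : τ (X 0) = X 0 := by
    change E c d (X 0) = X 0
    simp [E]
  have t1 : τ (X 1) = X 1 + X 0 * C c + X 0 ^ 2 * C d := by
    change E c d (X 1) = _
    simp [E]
  have hfin : (τ.trans σ.symm) (X 0) = X 0 ∧ (τ.trans σ.symm) (X 1) = venType Q := by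
    constructor
    · rw [AlgEquiv.trans_apply, t0, AlgEquiv.symm_apply_eq, s0]
    · rw [AlgEquiv.trans_apply, t1, AlgEquiv.symm_apply_eq, s1]
  exact ⟨⟨τ.trans σ.symm, 1, hfin.2⟩, τ.trans σ.symm, hfin.1, hfin.2⟩

end Vale.Agent.Results.P295.VenereauNormalForm
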