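import Mathlib
import Vale.Agent.Lib.P295.SecondDefs
import Vale.Agent.Lib.P295.SecondProof

/-!
# P295: many Vénéreau-type stable coordinates are coordinates

`ℂ[x,y,z,u] = MvPolynomial (Fin 4) ℂ`, with `x, y, z, u = X 0, X 1, X 2, X 3`.
-/

namespace Vale.Agent.Results.P295.CandidatesAreCoordinates

open MvPolynomial Vale.Agent.P295.Second

theorem result :
    -- (1) if `Q(0,0,t)` and `∂Q/∂x(0,0,t) + (t/4) (∂Q/∂v(0,0,t))²` are constants, then `f_Q` is a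
    -- coordinate; even `ℂ[x, f_Q, g, h] = ℂ[x,y,z,u]` for some `g, h`
    (∀ (Q : MvPolynomial (Fin 3) ℂ) (c d : ℂ), at00 Q = Polynomial.C c →
      at00 (pderiv 0 Q) + Polynomial.C (1 / 4) * Polynomial.X * at00 (pderiv 1 Q) ^ 2 =
        Polynomial.C d →
      Coordinate (f Q) ∧
      ∃ g h : MvPolynomial (Fin 4) ℂ, Algebra.adjoin ℂ {X 0, f Q, g, h} = ⊤) ∧
    -- (2) examples
    (∀ k : ℕ, 2 ≤ k → Coordinate (X 1 + X 0 * v ^ k)) ∧
    Coordinate (X 1 + X 0 * v - C (1 / 4) * X 0 ^ 2 * w) ∧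
    -- (3) the first Vénéreau polynomial `b_1 = y + x v`
    (Coordinate (X 1 + X 0 * v) ↔ Coordinate (X 1 + C (1 / 4) * X 0 ^ 2 * w)) ∧
    -- (4) for every `Q` and `s`-term: `f_Q` is a coordinate iff its normal form is
    (∀ (Q : MvPolynomial (Fin 3) ℂ), ∃ s : Polynomial ℂ,
      (Coordinate (f Q) ↔ Coordinate (X 1 + X 0 * Polynomial.aeval w (at00 Q) +
        X 0 ^ 2 * Polynomial.aeval w s)) ∧
      ∃ σ : MvPolynomial (Fin 4) ℂ ≃ₐ[ℂ] MvPolynomial (Fin 4) ℂ, σ (X 0) = X 0 ∧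
        σ (f Q) = X 1 + X 0 * Polynomial.aeval w (at00 Q) + X 0 ^ 2 * Polynomial.aeval w s) ∧
    -- (5) if `Q(0,0,t) = c` is constant, then the normal form is explicit
    (∀ (Q : MvPolynomial (Fin 3) ℂ) (c : ℂ), at00 Q = Polynomial.C c →
      ∃ σ : MvPolynomial (Fin 4) ℂ ≃ₐ[ℂ] MvPolynomial (Fin 4) ℂ, σ (X 0) = X 0 ∧
        σ (f Q) = X 1 + X 0 * C c + X 0 ^ 2 * Polynomial.aeval w
          (at00 (pderiv 0 Q) +
            Polynomial.C (1 / 4) * Polynomial.X * at00 (pderiv 1 Q) ^ 2)) :=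
  main

end Vale.Agent.Results.P295.CandidatesAreCoordinates
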